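import Vale.Agent.P080.Basic

/-!
# Flat Liouville theorem: cone bound, barrier and iteration
-/

namespace Vale.Agent.P080

open Real Filter
open scoped RealInnerProductSpace Topology

noncomputable section

variable {E : Type*} [NormedAddCommGroup E] [InnerProductSpace ℝ E] [FiniteDimensional ℝ E]

theorem gradient_eq_of_hasFDerivAt {φ : E → ℝ} {z g : E} {L : E →L[ℝ] ℝ}
    (h : HasFDerivAt φ L z) (hL : ∀ v, L v = ⟪g, v⟫) : gradient φ z = g := by
  have he : L = InnerProductSpace.toDual ℝ E g := by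
    ext v
    rw [InnerProductSpace.toDual_apply_apply, hL]
  have : HasGradientAt φ g z := hasGradientAt_iff_hasFDerivAt.2 (he ▸ h)
  exact this.gradient

omit [FiniteDimensional ℝ E] in
theorem norm_le_along {e w : E} (hs : 0 < ⟪e, w⟫) :
    ‖w‖ ≤ ⟪e, w⟫ + (‖w‖ ^ 2 - ⟪e, w⟫ ^ 2) / (2 * ⟪e, w⟫) := by
  rw [← sub_le_iff_le_add', le_div_iff₀ (by positivity)]
  nlinarith [sq_nonneg (‖w‖ - ⟪e, w⟫)]

/-- Comparison with cones: a growth bound with slope below `k` gives the Lipschitz constant `k`. -/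
theorem sub_le_of_growth {u : E → ℝ} (hu : InfHarmonic u) {k L C β : ℝ} (hLk : L < k) (hL : 0 ≤ L)
    (hβ0 : 0 ≤ β) (hβ1 : β < 1) (x : E)
    (hg : ∀ w, u w - u x ≤ L * ‖w - x‖ + C * (1 + ‖w - x‖) ^ β) (y : E) :
    u y - u x ≤ k * ‖y - x‖ := by
  have htend : Tendsto (fun ρ : ℝ => ρ ^ β / ρ) atTop (𝓝 0) := by
    refine (tendsto_rpow_neg_atTop (y := 1 - β) (by linarith)).congr' ?_
    filter_upwards [eventually_gt_atTop 0] with ρ hρ
    rw [neg_sub, rpow_sub hρ, rpow_one]
  have h2 : ∀ᶠ ρ : ℝ in atTop, ρ ^ β / ρ < (k - L) / (4 * (|C| + 1)) :=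
    htend.eventually_lt_const (div_pos (by linarith) (by positivity))
  obtain ⟨ρ, hρ2, hρy, hρ1⟩ :=
    (h2.and ((eventually_gt_atTop ‖y - x‖).and (eventually_ge_atTop 1))).exists
  have hρ0 : 0 < ρ := by linarith
  have hC : C * (1 + ρ) ^ β ≤ (k - L) * ρ / 2 := by
    have h1 : (1 + ρ) ^ β ≤ 2 * ρ ^ β := by
      calc (1 + ρ) ^ β ≤ (2 * ρ) ^ β := rpow_le_rpow (by linarith) (by linarith) hβ0
        _ = 2 ^ β * ρ ^ β := mul_rpow (by norm_num) hρ0.le
        _ ≤ 2 * ρ ^ β := by
          refine mul_le_mul_of_nonneg_right ?_ (rpow_nonneg hρ0.le _)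
          simpa using rpow_le_rpow_of_exponent_le (x := (2 : ℝ)) (by norm_num) hβ1.le
    have h3 : ρ ^ β * (4 * (|C| + 1)) ≤ (k - L) * ρ := by
      rw [div_lt_div_iff₀ hρ0 (by positivity)] at hρ2
      linarith
    nlinarith [mul_le_mul (le_abs_self C) h1 (rpow_nonneg (by linarith) _) (abs_nonneg C),
      rpow_nonneg hρ0.le β]
  set σ := (k - L) / (2 * ρ) with hσdef
  have hσ : 0 < σ := div_pos (by linarith) (by linarith)
  have hσρ : σ * ρ = (k - L) / 2 := by
    rw [hσdef]
    field_simp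
  have hle : ∀ w ∈ Metric.closedBall x ρ,
      u w - u x - (k * ‖w - x‖ - σ * ‖w - x‖ ^ 2) ≤ 0 := by
    obtain ⟨w, hw, hwmax⟩ := (isCompact_closedBall x ρ).exists_isMaxOn
      (f := fun w => u w - u x - (k * ‖w - x‖ - σ * ‖w - x‖ ^ 2))
      ⟨x, Metric.mem_closedBall_self hρ0.le⟩ (by
        have := hu.1
        fun_prop)
    intro w' hw'
    refine (hwmax hw').trans ?_
    by_contra hpos
    push Not at hpos
    have hwx : w ≠ x := by
      rintro rfl
      simp at hpos
    have hr0 : 0 < ‖w - x‖ := norm_pos_iff.2 (sub_ne_zero.2 hwx)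
    have hrρ : ‖w - x‖ < ρ := by
      rcases lt_or_eq_of_le (show ‖w - x‖ ≤ ρ by simpa [dist_eq_norm] using hw) with h | h
      · exact h
      · exfalso
        rw [h] at hpos
        have := hg w
        rw [h] at this
        nlinarith
    set r := ‖w - x‖ with hr
    set φ : E → ℝ := fun v => u x + (k * ‖v - x‖ - σ * ‖v - x‖ ^ 2) with hφdef
    have hcd : ContDiffAt ℝ 2 φ w := by
      have hn : ContDiffAt ℝ 2 (fun v => ‖v - x‖) w :=
        (contDiffAt_id.sub contDiffAt_const).norm ℝ (sub_ne_zero.2 hwx)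
      exact contDiffAt_const.add ((contDiffAt_const.mul hn).sub (contDiffAt_const.mul (hn.pow 2)))
    have hmax : IsLocalMax (fun v => u v - φ v) w := by
      have hnhds : Metric.closedBall x ρ ∈ 𝓝 w :=
        Metric.closedBall_mem_nhds_of_mem (by simpa [dist_eq_norm] using hrρ)
      filter_upwards [hnhds] with v hv
      have := hwmax hv
      simp only [hφdef, Set.mem_ofPred_eq] at this ⊢
      linarith
    set n := r⁻¹ • (w - x) with hndef
    set c := k - 2 * σ * r with hcdef
    have hcpos : 0 < c := by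
      have : σ * r < σ * ρ := mul_lt_mul_of_pos_left hrρ hσ
      rw [hcdef]
      linarith
    have hsq : HasFDerivAt (fun v => ‖v - x‖ ^ 2) ((2 : ℝ) • innerSL ℝ (w - x)) w := by
      have h := ((hasFDerivAt_id w).sub_const x).norm_sq
      simp only [id, ← Nat.cast_smul_eq_nsmul ℝ, Nat.cast_ofNat] at h
      exact h
    have hnorm : HasFDerivAt (fun v => ‖v - x‖) (r⁻¹ • innerSL ℝ (w - x)) w := by
      have h := hsq.sqrt (pow_pos hr0 2).ne'
      simp only [Real.sqrt_sq (norm_nonneg _)] at h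
      convert h using 1
      rw [smul_smul, ← hr]
      congr 1
      field_simp
    have hgrad : gradient φ w = c • n := by
      refine gradient_eq_of_hasFDerivAt
        (((hnorm.const_mul k).sub (hsq.const_mul σ)).const_add (u x)) fun v => ?_
      simp [hndef, hcdef, real_inner_smul_left, inner_sub_left]
      field_simp
    have hline : ∀ᶠ h in 𝓝 (0 : ℝ), φ (w + h • (c • n)) =
        u x + (k * (r + h * c) - σ * (r + h * c) ^ 2) := by
      have hev : ∀ᶠ h in 𝓝 (0 : ℝ), 0 < r + h * c :=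
        ((continuous_const.add (continuous_id.mul continuous_const)).tendsto' 0 r (by simp [hr])
          ).eventually (lt_mem_nhds hr0)
      filter_upwards [hev] with h hh
      have hrew : w + h • (c • n) - x = ((r + h * c) / r) • (w - x) := by
        rw [hndef, smul_smul, smul_smul, add_div, add_smul, div_self hr0.ne', one_smul,
          show h * c / r = h * c * r⁻¹ from div_eq_mul_inv _ _]
        abel
      simp only [hφdef, hrew, norm_smul, Real.norm_eq_abs, abs_div, abs_of_pos hh,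
        abs_of_pos hr0, ← hr, div_mul_cancel₀ _ hr0.ne']
    have h1 : ∀ᶠ h in 𝓝 (0 : ℝ), HasDerivAt (fun h => φ (w + h • (c • n)))
        (c * (k - 2 * σ * (r + h * c))) h := by
      filter_upwards [hline.eventually_nhds] with h hh
      refine HasDerivAt.congr_of_eventuallyEq ?_ hh
      have := (((hasDerivAt_id h).mul_const c).const_add r)
      refine (((this.const_mul k).sub ((this.pow 2).const_mul σ)).const_add (u x)).congr_deriv ?_
      simp
      ring
    have h2 : HasDerivAt (fun h : ℝ => c * (k - 2 * σ * (r + h * c))) (-(2 * σ * c ^ 2)) 0 := by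
      refine (((((hasDerivAt_id (0 : ℝ)).mul_const c).const_add r).const_mul (2 * σ)).const_sub k
        |>.const_mul c).congr_deriv ?_
      ring
    have := hu.2.1 φ w hcd hmax
    rw [infLap_eq_of_deriv hcd hgrad h1 h2] at this
    nlinarith [mul_pos hσ (pow_pos hcpos 2)]
  have := hle y (by simpa [dist_eq_norm] using hρy.le)
  nlinarith [sq_nonneg ‖y - x‖]

theorem exp_const : 1 / 60 < exp (-4) - exp (-9) := by
  have h1 := exp_one_lt_d9
  have h2 := exp_one_gt_d9
  have h4 : exp 4 ≤ 55 := by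
    rw [show (4 : ℝ) = ((4 : ℕ) : ℝ) * 1 by norm_num, exp_nat_mul]
    calc exp 1 ^ 4 ≤ 2.7182818286 ^ 4 := pow_le_pow_left₀ (exp_pos 1).le h1.le 4
      _ ≤ 55 := by norm_num
  have h9 : 8000 ≤ exp 9 := by
    rw [show (9 : ℝ) = ((9 : ℕ) : ℝ) * 1 by norm_num, exp_nat_mul]
    calc (8000 : ℝ) ≤ 2.7182818283 ^ 9 := by norm_num
      _ ≤ exp 1 ^ 9 := pow_le_pow_left₀ (by norm_num) h2.le 9
  rw [exp_neg, exp_neg]
  have h4' : (55 : ℝ)⁻¹ ≤ (exp 4)⁻¹ := inv_anti₀ (exp_pos 4) h4
  have h9' : (exp 9)⁻¹ ≤ (8000 : ℝ)⁻¹ := inv_anti₀ (by norm_num) h9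
  norm_num at h4' h9' ⊢
  linarith

/-- The barrier and its infinity Laplacian. -/
def barrier (e p : E) (R A b : ℝ) (x : E) : ℝ :=
  ⟪e, x⟫ + b + (A * exp (-3 * (⟪e, x - p⟫ / R)) - A * exp (-6))
    - 2 / (3 * R) * (‖x - p‖ ^ 2 - ⟪e, x - p⟫ ^ 2)

theorem infLap_barrier {e : E} (he : ‖e‖ = 1) (p : E) {R : ℝ} (hR : 0 < R) (A b : ℝ) (w : E) :
    ContDiffAt ℝ 2 (barrier e p R A b) w ∧ infLap (barrier e p R A b) w =
      9 * (1 - 3 * (A * exp (-3 * (⟪e, w - p⟫ / R))) / R) ^ 2 / R ^ 2
          * (A * exp (-3 * (⟪e, w - p⟫ / R)))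
        - 4 / (3 * R) * ((4 / (3 * R)) ^ 2 * (‖w - p‖ ^ 2 - ⟪e, w - p⟫ ^ 2)) := by
  have hee : ⟪e, e⟫ = 1 := by rw [real_inner_self_eq_norm_sq, he, one_pow]
  set S : E → ℝ := fun x => ⟪e, x - p⟫ with hS
  set Y : E → ℝ := fun x => ‖x - p‖ ^ 2 - ⟪e, x - p⟫ ^ 2 with hY
  set F : E → ℝ := fun x => A * exp (-3 * (S x / R)) with hF
  set φ : E → ℝ := barrier e p R A b with hφdef
  have hφ : φ = fun x => ⟪e, x⟫ + b + (F x - A * exp (-6)) - 2 / (3 * R) * Y x := rfl
  have hcd : ContDiffAt ℝ 2 φ w := by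
    have : ContDiff ℝ 2 φ := by
      simp only [hφ, hF, hY, hS]
      exact ((((contDiff_const.inner ℝ contDiff_id).add contDiff_const).add
        ((contDiff_const.mul (contDiff_exp.comp (contDiff_const.mul
          ((contDiff_const.inner ℝ (contDiff_id.sub contDiff_const)).div_const R)))).sub
          contDiff_const))).sub (contDiff_const.mul (((contDiff_id.sub contDiff_const).norm_sq ℝ).sub
            ((contDiff_const.inner ℝ (contDiff_id.sub contDiff_const)).pow 2)))
    exact this.contDiffAt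
  set s := S w with hsdef
  set y := w - p - s • e with hy
  have hey : ⟪e, y⟫ = 0 := by
    simp [hy, inner_sub_right, real_inner_smul_right, he, hsdef, hS]
  have hyY : ‖y‖ ^ 2 = Y w := by
    rw [hy, norm_sub_sq_real, norm_smul, real_inner_smul_right, real_inner_comm, Real.norm_eq_abs,
      he, mul_one, sq_abs]
    simp only [hY, hsdef, hS]
    ring
  set μ := 1 - 3 * F w / R with hμ
  set g := μ • e - (4 / (3 * R)) • y with hg
  have hgrad : gradient φ w = g := by
    have hSd : HasFDerivAt S (innerSL ℝ e) w := by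
      have : S = fun x => innerSL ℝ e x - ⟪e, p⟫ := funext fun x => by
        simp [hS, inner_sub_right]
      rw [this]
      exact (innerSL ℝ e).hasFDerivAt.sub_const _
    have hI : HasFDerivAt (fun x : E => ⟪e, x⟫) (innerSL ℝ e) w := (innerSL ℝ e).hasFDerivAt
    have hsq : HasFDerivAt (fun x => ‖x - p‖ ^ 2) ((2 : ℝ) • innerSL ℝ (w - p)) w := by
      have h := ((hasFDerivAt_id w).sub_const p).norm_sq
      simp only [id, ← Nat.cast_smul_eq_nsmul ℝ, Nat.cast_ofNat] at h
      exact h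
    have hFd : HasFDerivAt F _ w :=
      ((((hSd.mul_const R⁻¹)).const_mul (-3)).exp).const_mul A
    refine gradient_eq_of_hasFDerivAt ((((hI.add_const b).add (hFd.sub_const _))).sub
      ((hsq.sub (hSd.pow 2)).const_mul (2 / (3 * R)))) fun v => ?_
    simp only [hg, hy, hμ, hsdef, hF, inner_sub_left, real_inner_smul_left]
    simp [div_eq_mul_inv]
    ring
  have heg : ⟪e, g⟫ = μ := by simp [hg, inner_sub_right, real_inner_smul_right, he, hey]
  have hgn : ‖g‖ ^ 2 - μ ^ 2 = (4 / (3 * R)) ^ 2 * Y w := by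
    rw [hg, norm_sub_sq_real, real_inner_smul_left, real_inner_smul_right, hey, norm_smul,
      norm_smul, Real.norm_eq_abs, Real.norm_eq_abs, mul_pow, mul_pow, sq_abs, sq_abs, he, hyY]
    ring
  set α := ⟪w - p, g⟫ - s * μ with hα
  set β := ‖g‖ ^ 2 - μ ^ 2 with hβ
  have hline : (fun h : ℝ => φ (w + h • g)) = fun h =>
      ⟪e, w⟫ + h * μ + b + (A * exp (-3 * ((s + h * μ) / R)) - A * exp (-6))
        - 2 / (3 * R) * (Y w + 2 * h * α + h ^ 2 * β) := by
    funext h
    have h1 : S (w + h • g) = s + h * μ := by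
      simp only [hsdef, hS]
      rw [show w + h • g - p = (w - p) + h • g by abel, inner_add_right, real_inner_smul_right, heg]
    have h2 : Y (w + h • g) = Y w + 2 * h * α + h ^ 2 * β := by
      have h1' : ⟪e, w + h • g - p⟫ = s + h * μ := h1
      simp only [hY, h1', hα, hβ]
      rw [show w + h • g - p = (w - p) + h • g by abel, norm_add_sq_real, real_inner_smul_right,
        norm_smul, Real.norm_eq_abs, mul_pow, sq_abs]
      simp only [hsdef, hS]
      ring
    simp only [hφ, hF, h1, h2, inner_add_right, real_inner_smul_right, heg]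
  have hd1 : ∀ h : ℝ, HasDerivAt (fun h : ℝ => φ (w + h • g))
      (μ - 3 * μ / R * (A * exp (-3 * ((s + h * μ) / R)))
        - 2 / (3 * R) * (2 * α + 2 * h * β)) h := by
    intro h
    rw [hline]
    have hid := hasDerivAt_id h
    refine (((((hid.mul_const μ).const_add ⟪e, w⟫).add_const b).add
      (((((((hid.mul_const μ).const_add s).div_const R).const_mul (-3)).exp).const_mul A).sub_const
        (A * exp (-6)))).sub ((((hid.const_mul 2).mul_const α).const_add (Y w)).add
          ((hid.pow 2).mul_const β) |>.const_mul (2 / (3 * R)))).congr_deriv ?_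
    simp
    ring
  have hd2 : HasDerivAt (fun h : ℝ => μ - 3 * μ / R * (A * exp (-3 * ((s + h * μ) / R)))
        - 2 / (3 * R) * (2 * α + 2 * h * β))
      (9 * μ ^ 2 / R ^ 2 * F w - 4 / (3 * R) * β) 0 := by
    have hid := hasDerivAt_id (0 : ℝ)
    refine ((((((((hid.mul_const μ).const_add s).div_const R).const_mul (-3)).exp).const_mul A
      ).const_mul (3 * μ / R)).const_sub μ |>.sub
        ((((hid.const_mul 2).mul_const β).const_add (2 * α)).const_mul (2 / (3 * R)))).congr_deriv ?_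
    simp only [hF, hsdef, id_eq, zero_mul, add_zero]
    field_simp
    ring
  refine ⟨hcd, ?_⟩
  rw [infLap_eq_of_deriv hcd hgrad (Eventually.of_forall hd1) hd2, hgn]

theorem barrier_key {R F Y : ℝ} (hR : 0 < R) (hF : 0 < F) (hFR : F / R ≤ 1 / 10)
    (hY : 19 / (30 * R) * Y < F)
    (hle : 9 * (1 - 3 * F / R) ^ 2 / R ^ 2 * F - 4 / (3 * R) * ((4 / (3 * R)) ^ 2 * Y) ≤ 0) :
    False := by
  set μ := 1 - 3 * F / R with hμ
  have hμ1 : 7 / 10 ≤ μ := by
    rw [hμ, mul_div_assoc]
    linarith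
  have hμ2 : 49 / 100 ≤ μ ^ 2 := by nlinarith
  have h1 : 4 / (3 * R) * ((4 / (3 * R)) ^ 2 * Y)
      = (64 * 30 / (27 * 19)) * (19 / (30 * R) * Y) / R ^ 2 := by
    field_simp
    ring
  have h2 : (64 * 30 / (27 * 19)) * (19 / (30 * R) * Y) < 9 * μ ^ 2 * F := by
    nlinarith [mul_le_mul_of_nonneg_right hμ2 hF.le]
  have h3 := div_lt_div_of_pos_right h2 (pow_pos hR 2)
  rw [h1, show 9 * μ ^ 2 / R ^ 2 * F = 9 * μ ^ 2 * F / R ^ 2 by ring] at hle
  linarith

/-- The barrier step: the drop of `u - ⟪e, ·⟫` along an axis cannot be concentrated. -/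
theorem drop_step {u : E → ℝ} (hu : InfHarmonic u) (hlip : ∀ x y, u y - u x ≤ ‖y - x‖)
    {e : E} (he : ‖e‖ = 1) (p : E) {R : ℝ} (hR : 0 < R) :
    let a : ℝ → ℝ := fun s => u (p + s • e) - ⟪e, p⟫ - s
    a (-R / 4) - a (17 * R) ≤ R / 10 →
      a (-R / 4) - a (17 * R) ≤ 60 * (a (R / 4) - a (17 * R)) := by
  intro a hJR
  by_contra hcon
  push Not at hcon
  have hee : ⟪e, e⟫ = 1 := by rw [real_inner_self_eq_norm_sq, he, one_pow]
  set S : E → ℝ := fun x => ⟪e, x - p⟫ with hS
  set Y : E → ℝ := fun x => ‖x - p‖ ^ 2 - ⟪e, x - p⟫ ^ 2 with hY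
  have hY0 : ∀ x, 0 ≤ Y x := fun x => by
    have := abs_real_inner_le_norm e (x - p)
    rw [he, one_mul] at this
    have h2 := pow_le_pow_left₀ (abs_nonneg _) this 2
    rw [sq_abs] at h2
    simp only [hY]
    linarith
  have hanchor : ∀ (x : E) (s : ℝ), S x < s →
      a s - Y x / (2 * (s - S x)) ≤ u x - ⟪e, x⟫ := by
    intro x s hs
    have hw : ⟪e, p + s • e - x⟫ = s - S x := by
      simp only [hS, inner_sub_right, inner_add_right, real_inner_smul_right, hee]
      ring
    have hn : ‖p + s • e - x‖ ^ 2 - ⟪e, p + s • e - x⟫ ^ 2 = Y x := by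
      rw [hw, show p + s • e - x = s • e - (x - p) by abel, norm_sub_sq_real, norm_smul,
        real_inner_smul_left, Real.norm_eq_abs, he, mul_one, sq_abs]
      simp only [hS, hY]
      ring
    have h1 := norm_le_along (e := e) (w := p + s • e - x) (by rw [hw]; linarith)
    rw [hn, hw] at h1
    have h2 := hlip x (p + s • e)
    have h3 : S x = ⟪e, x⟫ - ⟪e, p⟫ := inner_sub_right ..
    simp only [a]
    linarith
  set b := a (17 * R) with hb
  set J := a (-R / 4) - b with hJ
  have hD0 : b ≤ a (R / 4) := by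
    have h := hlip (p + (R / 4) • e) (p + (17 * R) • e)
    rw [show p + (17 * R) • e - (p + (R / 4) • e) = (17 * R - R / 4) • e by module, norm_smul,
      Real.norm_eq_abs, he, mul_one, abs_of_pos (by linarith)] at h
    simp only [hb, a]
    linarith
  have hJ0 : 0 < J := by linarith
  set A := J * exp (-3) with hA
  have hA0 : 0 < A := mul_pos hJ0 (exp_pos _)
  set F : E → ℝ := fun x => A * exp (-3 * (S x / R)) with hF
  set φ : E → ℝ := barrier e p R A b with hφdef
  have hφ : φ = fun x => ⟪e, x⟫ + b + (F x - A * exp (-6)) - 2 / (3 * R) * Y x := rfl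
  set K : Set E := {x | (-R ≤ S x ∧ S x ≤ 2 * R) ∧ Y x ≤ 4 * J * R} with hK
  have hSc : Continuous S := by simp only [hS]; fun_prop
  have hYc : Continuous Y := by simp only [hY]; fun_prop
  have hKc : IsCompact K := by
    refine Metric.isCompact_of_isClosed_isBounded ?_ ?_
    · exact ((isClosed_le continuous_const hSc).inter (isClosed_le hSc continuous_const)).inter
        (isClosed_le hYc continuous_const)
    · refine (Metric.isBounded_closedBall (x := p) (r := 2 * R + 4 * J * R + 1)).subset ?_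
      rintro x ⟨⟨h1, h2⟩, h3⟩
      rw [Metric.mem_closedBall, dist_eq_norm]
      simp only [hY, hS] at h1 h2 h3
      nlinarith [norm_nonneg (x - p), mul_pos hJ0 hR]
  have hF3 : ∀ x, -R ≤ S x → F x ≤ J := by
    intro x hx
    have h1 : exp (-3 * (S x / R)) ≤ exp 3 := by
      refine exp_le_exp.2 ?_
      have : -1 ≤ S x / R := by rw [le_div_iff₀ hR]; linarith
      linarith
    calc F x ≤ A * exp 3 := mul_le_mul_of_nonneg_left h1 hA0.le
      _ = J := by rw [hA, mul_assoc, ← exp_add]; norm_num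
  have hlow : ∀ x, S x ≤ 2 * R → b - 1 / (30 * R) * Y x ≤ u x - ⟪e, x⟫ := by
    intro x hx
    refine le_trans ?_ (hanchor x (17 * R) (by linarith))
    have : Y x / (2 * (17 * R - S x)) ≤ Y x / (30 * R) :=
      div_le_div_of_nonneg_left (hY0 x) (by linarith) (by linarith)
    rw [one_div_mul_eq_div]
    linarith
  set x₀ := p + (R / 4) • e with hx₀
  have hS0 : S x₀ = R / 4 := by simp [hS, hx₀, real_inner_smul_right, he]
  have hY00 : Y x₀ = 0 := by simp [hY, hx₀, real_inner_smul_right, norm_smul, he, abs_of_pos hR]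
  have hx₀K : x₀ ∈ K := ⟨by rw [hS0]; constructor <;> linarith, by rw [hY00]; positivity⟩
  obtain ⟨w, hw, hwmin⟩ := hKc.exists_isMinOn ⟨x₀, hx₀K⟩ (f := fun x => u x - φ x) (by
    have := hu.1
    simp only [hφ, hF]
    fun_prop)
  have hneg : u w - φ w < 0 := by
    refine lt_of_le_of_lt (hwmin hx₀K) ?_
    have h1 : exp (-4) - exp (-9) ≤ exp (-15 / 4) - exp (-9) := by
      linarith [exp_le_exp.2 (show (-4 : ℝ) ≤ -15 / 4 by norm_num)]
    have h2 : exp (-3) * exp (-3 * (1 / 4)) = exp (-15 / 4) := by rw [← exp_add]; norm_num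
    have h3 : exp (-3) * exp (-6) = exp (-9) := by rw [← exp_add]; norm_num
    have h4 : F x₀ - A * exp (-6) = J * (exp (-15 / 4) - exp (-9)) := by
      simp only [hF, hA, hS0]
      rw [show R / 4 / R = 1 / 4 by field_simp, ← h2, ← h3]
      ring
    have h5 : ⟪e, x₀⟫ = ⟪e, p⟫ + R / 4 := by
      simp [hx₀, inner_add_right, real_inner_smul_right, he]
    have h6 : J / 60 < J * (exp (-15 / 4) - exp (-9)) := by
      have := mul_lt_mul_of_pos_left (exp_const.trans_le h1) hJ0
      linarith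
    have h7 : u x₀ = a (R / 4) + ⟪e, p⟫ + R / 4 := by simp only [a, ← hx₀]; ring
    simp only [hφ]
    rw [h4, hY00, h5, h7]
    linarith
  have hS1 : -R < S w := by
    rcases lt_or_eq_of_le hw.1.1 with h | h
    · exact h
    · exfalso
      have h1 := hanchor w (-R / 4) (by linarith)
      rw [show (2 : ℝ) * (-R / 4 - S w) = 3 * R / 2 by rw [← h]; ring] at h1
      have h2 := hF3 w hw.1.1
      have h3 : 0 < A * exp (-6) := by positivity
      have h4 : Y w / (3 * R / 2) = 2 / (3 * R) * Y w := by field_simp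
      simp only [hφ] at hneg
      linarith
  have hYR : 19 / (30 * R) * Y w < F w := by
    have h1 := hlow w hw.1.2
    have h3 : 0 < A * exp (-6) := by positivity
    simp only [hφ] at hneg
    have : 2 / (3 * R) * Y w - 1 / (30 * R) * Y w = 19 / (30 * R) * Y w := by field_simp; ring
    linarith
  have hS2 : S w < 2 * R := by
    rcases lt_or_eq_of_le hw.1.2 with h | h
    · exact h
    · exfalso
      have h1 := hlow w hw.1.2
      have h2 : F w = A * exp (-6) := by
        simp only [hF, h]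
        rw [show 2 * R / R = 2 by field_simp]
        norm_num
      have h4 : 1 / (30 * R) * Y w ≤ 2 / (3 * R) * Y w := by
        refine mul_le_mul_of_nonneg_right ?_ (hY0 w)
        rw [div_le_div_iff₀ (by positivity) (by positivity)]
        linarith
      simp only [hφ] at hneg
      linarith
  have hY1 : Y w < 4 * J * R := by
    have h := hYR.trans_le (hF3 w hS1.le)
    rw [div_mul_eq_mul_div, div_lt_iff₀ (by positivity)] at h
    nlinarith
  have hmin : IsLocalMin (fun x => u x - φ x) w := by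
    refine hwmin.isLocalMin ?_
    have ho : IsOpen {x | (-R < S x ∧ S x < 2 * R) ∧ Y x < 4 * J * R} :=
      ((isOpen_lt continuous_const hSc).inter (isOpen_lt hSc continuous_const)).inter
        (isOpen_lt hYc continuous_const)
    exact Filter.mem_of_superset (ho.mem_nhds ⟨⟨hS1, hS2⟩, hY1⟩)
      (fun x hx => ⟨⟨hx.1.1.le, hx.1.2.le⟩, hx.2.le⟩)
  obtain ⟨hcd, hval⟩ := infLap_barrier he p hR A b w
  have hle := hu.2.2 φ w hcd hmin
  rw [hφdef, hval] at hle
  have hFw : 0 < F w := mul_pos hA0 (exp_pos _)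
  have hA3 : F w / R ≤ 1 / 10 := by
    rw [div_le_iff₀ hR]
    linarith [hF3 w hS1.le]
  exact barrier_key hR hFw hA3 hYR hle

end

end Vale.Agent.P080
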