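import Mathlib

/-!
# Infinity-harmonic functions, comparison with cones, and a barrier
-/

namespace Vale.Agent.P080

open Real
open scoped RealInnerProductSpace Topology

noncomputable section

variable {E : Type*} [NormedAddCommGroup E] [InnerProductSpace ℝ E] [FiniteDimensional ℝ E]

/-- The infinity Laplacian `⟪D²φ ∇φ, ∇φ⟫`. -/
def infLap (φ : E → ℝ) (x : E) : ℝ :=
  fderiv ℝ (fderiv ℝ φ) x (gradient φ x) (gradient φ x)

/-- Viscosity solutions of `infLap u = 0` on the whole space, tested by global `C²` functions. -/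
def InfHarmonic (u : E → ℝ) : Prop :=
  Continuous u ∧
    (∀ (φ : E → ℝ) (z : E), ContDiffAt ℝ 2 φ z → IsLocalMax (fun x => u x - φ x) z →
      0 ≤ infLap φ z) ∧
    (∀ (φ : E → ℝ) (z : E), ContDiffAt ℝ 2 φ z → IsLocalMin (fun x => u x - φ x) z →
      infLap φ z ≤ 0)

/-- The infinity Laplacian as a second derivative along the gradient line. -/
theorem infLap_eq_of_deriv {φ : E → ℝ} {z : E} (hφ : ContDiffAt ℝ 2 φ z) {g : E}
    (hg : gradient φ z = g) {d₁ : ℝ → ℝ} {c : ℝ}
    (h₁ : ∀ᶠ h in 𝓝 (0 : ℝ), HasDerivAt (fun h => φ (z + h • g)) (d₁ h) h)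
    (h₂ : HasDerivAt d₁ c 0) : infLap φ z = c := by
  have hdiff : ∀ᶠ x in 𝓝 z, DifferentiableAt ℝ φ x := by
    filter_upwards [hφ.eventually (by simp)] with x hx using hx.differentiableAt (by simp)
  have hline : ∀ h : ℝ, HasDerivAt (fun h : ℝ => z + h • g) g h := fun h => by
    simpa using ((hasDerivAt_id h).smul_const g).const_add z
  have htend : Filter.Tendsto (fun h : ℝ => z + h • g) (𝓝 0) (𝓝 z) := by
    have := (hline 0).continuousAt.tendsto
    simpa using this
  have he : d₁ =ᶠ[𝓝 0] fun h => fderiv ℝ φ (z + h • g) g := by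
    filter_upwards [h₁, htend.eventually hdiff] with h hh hd
    exact hh.unique (hd.hasFDerivAt.comp_hasDerivAt h (hline h))
  have hD : DifferentiableAt ℝ (fderiv ℝ φ) z :=
    (hφ.fderiv_right (m := 1) (by norm_num)).differentiableAt (by simp)
  have h3 : HasDerivAt (fun h : ℝ => fderiv ℝ φ (z + h • g))
      (fderiv ℝ (fderiv ℝ φ) z g) 0 :=
    hD.hasFDerivAt.comp_hasDerivAt_of_eq 0 (hline 0) (by simp)
  have h4 : HasDerivAt (fun h : ℝ => fderiv ℝ φ (z + h • g) g)
      (fderiv ℝ (fderiv ℝ φ) z g g) 0 := by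
    simpa using h3.clm_apply (hasDerivAt_const (0 : ℝ) g)
  rw [infLap, hg]
  exact (h4.congr_of_eventuallyEq he).unique h₂

theorem InfHarmonic.neg {u : E → ℝ} (hu : InfHarmonic u) : InfHarmonic (fun x => -u x) := by
  have key : ∀ (φ : E → ℝ) (z : E), infLap (fun x => -φ x) z = -infLap φ z := by
    intro φ z
    have h1 : fderiv ℝ (fun x => -φ x) = fun x => -fderiv ℝ φ x := funext fun x => fderiv_fun_neg
    have h2 : gradient (fun x => -φ x) z = -gradient φ z := by
      simp [gradient]
    rw [infLap, infLap, h1, h2, fderiv_fun_neg]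
    simp
  refine ⟨hu.1.neg, fun φ z hφ hmax => ?_, fun φ z hφ hmin => ?_⟩
  · have h := hu.2.2 (fun x => -φ x) z hφ.neg (by
      have := hmax.neg
      simpa [neg_sub, sub_neg_eq_add, add_comm] using this)
    rw [key] at h
    linarith
  · have h := hu.2.1 (fun x => -φ x) z hφ.neg (by
      have := hmin.neg
      simpa [neg_sub, sub_neg_eq_add, add_comm] using this)
    rw [key] at h
    linarith

theorem InfHarmonic.const_mul {u : E → ℝ} (hu : InfHarmonic u) {c : ℝ} (hc : 0 < c) :
    InfHarmonic (fun x => c * u x) := by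
  have key : ∀ (φ : E → ℝ) (z : E), ContDiffAt ℝ 2 φ z →
      infLap (fun x => c⁻¹ * φ x) z = c⁻¹ ^ 3 * infLap φ z := by
    intro φ z _
    have h1 : fderiv ℝ (fun x => c⁻¹ * φ x) = fun x => c⁻¹ • fderiv ℝ φ x := by
      funext x
      rw [show (fun x => c⁻¹ * φ x) = c⁻¹ • φ from rfl, fderiv_const_smul_field]
      rfl
    have h2 : gradient (fun x => c⁻¹ * φ x) z = c⁻¹ • gradient φ z := by
      simp [gradient, h1]
    have h3 : fderiv ℝ (fun x => c⁻¹ • fderiv ℝ φ x) z = c⁻¹ • fderiv ℝ (fderiv ℝ φ) z := by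
      by_cases hd : DifferentiableAt ℝ (fderiv ℝ φ) z
      · exact fderiv_fun_const_smul hd _
      · rw [fderiv_zero_of_not_differentiableAt hd, smul_zero,
          fderiv_zero_of_not_differentiableAt]
        intro hd'
        exact hd (by simpa [smul_smul, hc.ne'] using hd'.fun_const_smul c)
    rw [infLap, infLap, h1, h2, h3]
    simp
    ring
  have hc' : (0 : ℝ) < c⁻¹ ^ 3 := by positivity
  refine ⟨hu.1.const_mul c, fun φ z hφ hmax => ?_, fun φ z hφ hmin => ?_⟩
  · have h := hu.2.1 (fun x => c⁻¹ * φ x) z (contDiffAt_const.mul hφ) (by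
      filter_upwards [hmax] with x hx
      have : c * (u x - c⁻¹ * φ x) ≤ c * (u z - c⁻¹ * φ z) := by
        simp only [mul_sub, ← mul_assoc, mul_inv_cancel₀ hc.ne', one_mul]
        exact hx
      exact le_of_mul_le_mul_left this hc)
    rw [key φ z hφ] at h
    exact nonneg_of_mul_nonneg_right h hc'
  · have h := hu.2.2 (fun x => c⁻¹ * φ x) z (contDiffAt_const.mul hφ) (by
      filter_upwards [hmin] with x hx
      have : c * (u z - c⁻¹ * φ z) ≤ c * (u x - c⁻¹ * φ x) := by
        simp only [mul_sub, ← mul_assoc, mul_inv_cancel₀ hc.ne', one_mul]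
        exact hx
      exact le_of_mul_le_mul_left this hc)
    rw [key φ z hφ] at h
    exact le_of_mul_le_mul_left (by simpa using h) hc'

end

end Vale.Agent.P080
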