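import Vale.Agent.P080.Barrier

/-!
# Entire infinity-harmonic functions that are nearly affine at infinity
-/

namespace Vale.Agent.P080

open Real Filter
open scoped RealInnerProductSpace Topology

noncomputable section

variable {E : Type*} [NormedAddCommGroup E] [InnerProductSpace ℝ E] [FiniteDimensional ℝ E]

omit [FiniteDimensional ℝ E] in
theorem growth_sub {u : E → ℝ} {b : E} {C β : ℝ} (hβ : 0 ≤ β)
    (hg : ∀ x, |u x - ⟪b, x⟫| ≤ C * (1 + ‖x‖) ^ β) (x w : E) :
    u w - u x ≤ ‖b‖ * ‖w - x‖ + (2 * C * (1 + ‖x‖) ^ β) * (1 + ‖w - x‖) ^ β := by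
  have hC : 0 ≤ C := by
    have := (abs_nonneg _).trans (hg 0)
    simpa using this
  have h1 : (1 + ‖w‖) ^ β ≤ (1 + ‖x‖) ^ β * (1 + ‖w - x‖) ^ β := by
    rw [← mul_rpow (by positivity) (by positivity)]
    refine rpow_le_rpow (by positivity) ?_ hβ
    have h := norm_add_le x (w - x)
    rw [add_sub_cancel] at h
    nlinarith [mul_nonneg (norm_nonneg x) (norm_nonneg (w - x))]
  have h2 : (1 + ‖x‖) ^ β ≤ (1 + ‖x‖) ^ β * (1 + ‖w - x‖) ^ β :=
    le_mul_of_one_le_right (by positivity)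
      (one_le_rpow (le_add_of_nonneg_right (norm_nonneg _)) hβ)
  have h3 := (real_inner_le_norm b (w - x))
  rw [inner_sub_right] at h3
  have h4 := abs_le.1 (hg w)
  have h5 := abs_le.1 (hg x)
  nlinarith [mul_le_mul_of_nonneg_left h1 hC, mul_le_mul_of_nonneg_left h2 hC]

theorem lipschitz_of_growth {u : E → ℝ} (hu : InfHarmonic u) {b : E} {C β : ℝ} (hβ0 : 0 ≤ β)
    (hβ1 : β < 1) (hg : ∀ x, |u x - ⟪b, x⟫| ≤ C * (1 + ‖x‖) ^ β) (x y : E) :
    u y - u x ≤ ‖b‖ * ‖y - x‖ := by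
  refine le_of_forall_pos_le_add fun ε hε => ?_
  have hd : 0 < ε / (1 + ‖y - x‖) := div_pos hε (by positivity)
  refine (sub_le_of_growth hu (k := ‖b‖ + ε / (1 + ‖y - x‖)) (by linarith) (norm_nonneg b) hβ0 hβ1 x
    (fun w => growth_sub hβ0 hg x w) y).trans ?_
  rw [add_mul]
  refine add_le_add le_rfl ?_
  rw [div_mul_eq_mul_div, div_le_iff₀ (by positivity)]
  nlinarith [norm_nonneg (y - x)]

theorem q_lt_one : (68 : ℝ) ^ (1 / 300 : ℝ) < 61 / 60 := by
  have h : (68 : ℝ) < (61 / 60 : ℝ) ^ (300 : ℕ) := by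
    have h1 : (8 / 5 : ℝ) ≤ (61 / 60 : ℝ) ^ (30 : ℕ) := by norm_num
    calc (68 : ℝ) < (8 / 5 : ℝ) ^ (10 : ℕ) := by norm_num
      _ ≤ ((61 / 60 : ℝ) ^ (30 : ℕ)) ^ (10 : ℕ) := pow_le_pow_left₀ (by norm_num) h1 10
      _ = (61 / 60 : ℝ) ^ (300 : ℕ) := by rw [← pow_mul]
  have h2 := rpow_lt_rpow (by norm_num) h (show (0 : ℝ) < 1 / 300 by norm_num)
  have h3 : (((61 / 60 : ℝ) ^ (300 : ℕ)) : ℝ) ^ (1 / 300 : ℝ) = 61 / 60 := by
    rw [← rpow_natCast, ← rpow_mul (by norm_num)]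
    norm_num
  linarith

/-- Along every line in the direction `e` the drop of `u - ⟪e, ·⟫` vanishes. -/
theorem axis_const {u : E → ℝ} (hu : InfHarmonic u) {e : E} (he : ‖e‖ = 1) {C : ℝ}
    (hg : ∀ x, |u x - ⟪e, x⟫| ≤ C * (1 + ‖x‖) ^ (1 / 300 : ℝ)) (p : E) (s : ℝ) :
    u (p + s • e) = u p + s := by
  have hlip : ∀ x y, u y - u x ≤ ‖y - x‖ := fun x y => by
    simpa [he] using lipschitz_of_growth hu (by norm_num) (by norm_num) hg x y
  have hee : ⟪e, e⟫ = 1 := by rw [real_inner_self_eq_norm_sq, he, one_pow]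
  have hC : 0 ≤ C := by
    have := (abs_nonneg _).trans (hg 0)
    simpa using this
  set a : ℝ → ℝ := fun s => u (p + s • e) - ⟪e, p⟫ - s with ha
  have hanti : Antitone a := fun s t hst => by
    have h := hlip (p + s • e) (p + t • e)
    rw [show p + t • e - (p + s • e) = (t - s) • e by module, norm_smul, Real.norm_eq_abs, he,
      mul_one, abs_of_nonneg (sub_nonneg.2 hst)] at h
    simp only [ha]
    linarith
  set K := 4 * C * (1 + ‖p‖) ^ (1 / 300 : ℝ) with hK
  have hK0 : 0 ≤ K := by positivity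
  have hD : ∀ T : ℝ, 1 ≤ T → a (-T) - a T ≤ K * T ^ (1 / 300 : ℝ) := by
    intro T hT
    have hb : ∀ t : ℝ, |t| ≤ T → |a t| ≤ C * ((1 + ‖p‖) ^ (1 / 300 : ℝ) * (2 * T ^ (1 / 300 : ℝ))) := by
      intro t ht
      have h := hg (p + t • e)
      rw [inner_add_right, real_inner_smul_right, hee, mul_one, ← sub_sub] at h
      refine h.trans (mul_le_mul_of_nonneg_left ?_ hC)
      calc (1 + ‖p + t • e‖) ^ (1 / 300 : ℝ)
          ≤ ((1 + ‖p‖) * (2 * T)) ^ (1 / 300 : ℝ) := by
            refine rpow_le_rpow (by positivity) ?_ (by norm_num)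
            have h1 := norm_add_le p (t • e)
            rw [norm_smul, Real.norm_eq_abs, he, mul_one] at h1
            nlinarith [norm_nonneg p, mul_nonneg (norm_nonneg p) (by linarith : (0 : ℝ) ≤ T - 1)]
        _ = (1 + ‖p‖) ^ (1 / 300 : ℝ) * ((2 : ℝ) ^ (1 / 300 : ℝ) * T ^ (1 / 300 : ℝ)) := by
            rw [mul_rpow (by positivity) (by positivity), mul_rpow (by norm_num) (by linarith)]
        _ ≤ (1 + ‖p‖) ^ (1 / 300 : ℝ) * (2 * T ^ (1 / 300 : ℝ)) := by
            gcongr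
            simpa using rpow_le_rpow_of_exponent_le (x := (2 : ℝ)) (by norm_num)
              (show (1 / 300 : ℝ) ≤ 1 by norm_num)
    have h1 := abs_le.1 (hb T (le_of_eq (abs_of_nonneg (by linarith))))
    have h2 := abs_le.1 (hb (-T) (le_of_eq (by rw [abs_neg, abs_of_nonneg (by linarith)])))
    rw [hK]
    linarith
  have htend : Tendsto (fun T : ℝ => K * (68 : ℝ) ^ (1 / 300 : ℝ) * T ^ (-(299 / 300 : ℝ))) atTop
      (𝓝 0) := by
    simpa using (tendsto_rpow_neg_atTop (y := (299 / 300 : ℝ)) (by norm_num)).const_mul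
      (K * (68 : ℝ) ^ (1 / 300 : ℝ))
  obtain ⟨T₀, hT₀⟩ := eventually_atTop.1
    ((htend.eventually_lt_const (show (0 : ℝ) < 2 / 5 by norm_num)).and (eventually_ge_atTop 1))
  have hstep : ∀ T, T₀ ≤ T → 61 / 60 * (a (-T) - a T) ≤ a (-(68 * T)) - a (68 * T) := by
    intro T hT
    obtain ⟨hsmall, hT1⟩ := hT₀ T hT
    have hJ : a (-T) - a (68 * T) ≤ 2 / 5 * T := by
      have h1 := hanti (show -(68 * T) ≤ -T by linarith)
      have h2 := hD (68 * T) (by linarith)
      have h4 : (T : ℝ) ^ (1 / 300 : ℝ) = T ^ (-(299 / 300 : ℝ)) * T := by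
        rw [← rpow_add_one (by linarith : T ≠ 0)]
        norm_num
      rw [mul_rpow (by norm_num) (by linarith), h4, ← mul_assoc, ← mul_assoc] at h2
      nlinarith
    have h := drop_step hu hlip he p (R := 4 * T) (by linarith)
    dsimp only at h
    rw [show -(4 * T) / 4 = -T by ring, show 4 * T / 4 = T by ring,
      show 17 * (4 * T) = 68 * T by ring] at h
    have h60 : a (-T) - a (68 * T) ≤ 60 * (a T - a (68 * T)) := h (by linarith)
    have h2 := hanti (show -(68 * T) ≤ -T by linarith)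
    have h3 := hanti (show T ≤ 68 * T by linarith)
    linarith
  have hzero : ∀ T, T₀ ≤ T → a (-T) - a T ≤ 0 := by
    intro T hT
    have hT1 := (hT₀ T hT).2
    have hiter : ∀ n : ℕ, (61 / 60 : ℝ) ^ n * (a (-T) - a T) ≤
        a (-((68 : ℝ) ^ n * T)) - a ((68 : ℝ) ^ n * T) := by
      intro n
      induction n with
      | zero => simp
      | succ n ih =>
        have h1 : T₀ ≤ (68 : ℝ) ^ n * T :=
          hT.trans (le_mul_of_one_le_left (by linarith) (one_le_pow₀ (by norm_num)))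
        have h2 := hstep _ h1
        rw [show (68 : ℝ) ^ (n + 1) * T = 68 * ((68 : ℝ) ^ n * T) by ring, pow_succ]
        linarith
    set q := (68 : ℝ) ^ (1 / 300 : ℝ) * (60 / 61) with hq
    have hq1 : q < 1 := by
      have := q_lt_one
      rw [hq]
      linarith
    have hlim : Tendsto (fun n : ℕ => K * T ^ (1 / 300 : ℝ) * q ^ n) atTop (𝓝 0) := by
      simpa using (tendsto_pow_atTop_nhds_zero_of_lt_one (by positivity) hq1).const_mul
        (K * T ^ (1 / 300 : ℝ))
    refine ge_of_tendsto hlim (Eventually.of_forall fun n => ?_)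
    have h1 := (hiter n).trans (hD _ (hT1.trans (le_mul_of_one_le_left (by linarith)
      (one_le_pow₀ (by norm_num)))))
    have hpow : (((68 : ℝ) ^ n)) ^ (1 / 300 : ℝ) = ((68 : ℝ) ^ (1 / 300 : ℝ)) ^ n := by
      rw [← rpow_natCast, ← rpow_natCast, ← rpow_mul (by norm_num), ← rpow_mul (by norm_num),
        mul_comm]
    rw [mul_rpow (by positivity) (by linarith), hpow, ← le_div_iff₀' (by positivity)] at h1
    refine h1.trans (le_of_eq ?_)
    rw [hq, mul_pow, div_pow, div_pow]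
    field_simp
  set T := max (max T₀ |s|) 0 with hTdef
  have hTs : |s| ≤ T := (le_max_right T₀ |s|).trans (le_max_left _ _)
  have h0 := hzero T ((le_max_left T₀ |s|).trans (le_max_left _ _))
  obtain ⟨hs1, hs2⟩ := abs_le.1 hTs
  have hT0 : 0 ≤ T := le_max_right _ _
  have h1 := hanti hs1
  have h2 := hanti hs2
  have h3 := hanti (show -T ≤ 0 by linarith)
  have h4 := hanti hT0
  have h5 : a s = a 0 := by linarith
  simp only [ha, zero_smul, add_zero, sub_zero] at h5
  linarith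

theorem eq_affine_unit {u : E → ℝ} (hu : InfHarmonic u) {e : E} (he : ‖e‖ = 1) {C : ℝ}
    (hg : ∀ x, |u x - ⟪e, x⟫| ≤ C * (1 + ‖x‖) ^ (1 / 300 : ℝ)) (x : E) :
    u x = ⟪e, x⟫ + u 0 := by
  have hlip : ∀ x y, u y - u x ≤ ‖y - x‖ := fun x y => by
    simpa [he] using lipschitz_of_growth hu (by norm_num) (by norm_num) hg x y
  have key : ∀ p q : E, u p - u q ≤ ⟪e, p - q⟫ := by
    intro p q
    refine le_of_forall_pos_le_add fun ε hε => ?_
    obtain ⟨T, hT1, hT2⟩ : ∃ T : ℝ, 0 < T + ⟪e, p - q⟫ ∧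
        ‖p - q‖ ^ 2 / (2 * (T + ⟪e, p - q⟫)) ≤ ε := by
      refine ⟨‖p - q‖ ^ 2 / (2 * ε) + 1 - ⟪e, p - q⟫, ?_, ?_⟩
      · rw [sub_add_cancel]
        positivity
      · rw [sub_add_cancel, div_le_iff₀ (by positivity)]
        have h : ε * (2 * (‖p - q‖ ^ 2 / (2 * ε) + 1)) = ‖p - q‖ ^ 2 + 2 * ε := by field_simp
        linarith
    have hw : ⟪e, p + T • e - q⟫ = T + ⟪e, p - q⟫ := by
      rw [show p + T • e - q = (p - q) + T • e by abel, inner_add_right, real_inner_smul_right,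
        real_inner_self_eq_norm_sq, he]
      ring
    have h1 := norm_le_along (e := e) (w := p + T • e - q) (by rw [hw]; exact hT1)
    have h2 : ‖p + T • e - q‖ ^ 2 - ⟪e, p + T • e - q⟫ ^ 2 ≤ ‖p - q‖ ^ 2 := by
      rw [hw, show p + T • e - q = (p - q) + T • e by abel, norm_add_sq_real,
        real_inner_smul_right, norm_smul, Real.norm_eq_abs, he, mul_one, sq_abs, real_inner_comm e]
      nlinarith [sq_nonneg ⟪e, p - q⟫]
    rw [hw] at h1 h2
    have h3 := hlip q (p + T • e)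
    rw [axis_const hu he hg p T] at h3
    have h4 := div_le_div_of_nonneg_right h2 (by linarith : (0 : ℝ) ≤ 2 * (T + ⟪e, p - q⟫))
    linarith
  have h1 := key x 0
  have h2 := key 0 x
  rw [sub_zero] at h1
  rw [zero_sub, inner_neg_right] at h2
  linarith

/-- Flat Liouville theorem. -/
theorem eq_affine_of_growth {u : E → ℝ} (hu : InfHarmonic u) (b : E) (C : ℝ)
    (hg : ∀ x, |u x - ⟪b, x⟫| ≤ C * (1 + ‖x‖) ^ (1 / 300 : ℝ)) (x : E) :
    u x = ⟪b, x⟫ + u 0 := by
  rcases eq_or_ne b 0 with rfl | hb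
  · have h1 := lipschitz_of_growth hu (by norm_num) (by norm_num) hg 0 x
    have h2 := lipschitz_of_growth hu (by norm_num) (by norm_num) hg x 0
    simp only [norm_zero, zero_mul] at h1 h2
    rw [inner_zero_left]
    linarith
  · have hbn : 0 < ‖b‖ := norm_pos_iff.2 hb
    have hu' := hu.const_mul (inv_pos.2 hbn)
    have h := eq_affine_unit hu' (e := ‖b‖⁻¹ • b) (C := ‖b‖⁻¹ * C)
      (by rw [norm_smul, norm_inv, norm_norm, inv_mul_cancel₀ hbn.ne'])
      (fun y => by
        rw [real_inner_smul_left, ← mul_sub, abs_mul, abs_of_pos (inv_pos.2 hbn), mul_assoc]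
        exact mul_le_mul_of_nonneg_left (hg y) (inv_pos.2 hbn).le) x
    rw [real_inner_smul_left, ← mul_add] at h
    exact mul_left_cancel₀ (inv_pos.2 hbn).ne' h

end

end Vale.Agent.P080
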