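import Vale.Agent.P080.Liouville

/-!
# One-sided Liouville theorem

An upper bound by an affine function plus a small power already forces affinity.  The drop
`u - ⟪e, ·⟫` along a line is small on a negative half-line by the upper bound, and the barrier
step, used for the reflected function `-u` and the opposite direction, carries the smallness
across the origin by a continuity argument in the centre of the window.
-/

namespace Vale.Agent.P080

open Real Filter
open scoped RealInnerProductSpace Topology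

noncomputable section

variable {E : Type*} [NormedAddCommGroup E] [InnerProductSpace ℝ E] [FiniteDimensional ℝ E]

/-- The deviation from the unit slope along the line through `p` in direction `e`. -/
def lineDev (u : E → ℝ) (e p : E) (s : ℝ) : ℝ := u (p + s • e) - ⟪e, p⟫ - s

omit [FiniteDimensional ℝ E] in
theorem antitone_lineDev {u : E → ℝ} (hlip : ∀ x y, u y - u x ≤ ‖y - x‖) {e : E} (he : ‖e‖ = 1)
    (p : E) : Antitone (lineDev u e p) := fun s t hst => by
  have h := hlip (p + s • e) (p + t • e)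
  rw [show p + t • e - (p + s • e) = (t - s) • e by module, norm_smul, Real.norm_eq_abs, he,
    mul_one, abs_of_nonneg (sub_nonneg.2 hst)] at h
  simp only [lineDev]
  linarith

omit [FiniteDimensional ℝ E] in
theorem growth_sub_one {u : E → ℝ} {b : E} {C β : ℝ} (hC : 0 ≤ C) (hβ : 0 ≤ β)
    (hg : ∀ x, u x - ⟪b, x⟫ ≤ C * (1 + ‖x‖) ^ β) (x w : E) :
    u w - u x ≤ ‖b‖ * ‖w - x‖
      + (C * (1 + ‖x‖) ^ β + |u x - ⟪b, x⟫|) * (1 + ‖w - x‖) ^ β := by
  have h1 : (1 + ‖w‖) ^ β ≤ (1 + ‖x‖) ^ β * (1 + ‖w - x‖) ^ β := by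
    rw [← mul_rpow (by positivity) (by positivity)]
    refine rpow_le_rpow (by positivity) ?_ hβ
    have h := norm_add_le x (w - x)
    rw [add_sub_cancel] at h
    nlinarith [mul_nonneg (norm_nonneg x) (norm_nonneg (w - x))]
  have h2 : |u x - ⟪b, x⟫| ≤ |u x - ⟪b, x⟫| * (1 + ‖w - x‖) ^ β :=
    le_mul_of_one_le_right (abs_nonneg _)
      (one_le_rpow (le_add_of_nonneg_right (norm_nonneg _)) hβ)
  have h3 := real_inner_le_norm b (w - x)
  rw [inner_sub_right] at h3
  nlinarith [mul_le_mul_of_nonneg_left h1 hC, neg_abs_le (u x - ⟪b, x⟫), hg w]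

theorem lipschitz_of_upper_growth {u : E → ℝ} (hu : InfHarmonic u) {b : E} {C β : ℝ} (hC : 0 ≤ C)
    (hβ0 : 0 ≤ β) (hβ1 : β < 1) (hg : ∀ x, u x - ⟪b, x⟫ ≤ C * (1 + ‖x‖) ^ β) (x y : E) :
    u y - u x ≤ ‖b‖ * ‖y - x‖ := by
  refine le_of_forall_pos_le_add fun ε hε => ?_
  have hd : 0 < ε / (1 + ‖y - x‖) := div_pos hε (by positivity)
  refine (sub_le_of_growth hu (k := ‖b‖ + ε / (1 + ‖y - x‖)) (by linarith) (norm_nonneg b) hβ0 hβ1 x
    (fun w => growth_sub_one hC hβ0 hg x w) y).trans ?_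
  rw [add_mul]
  refine add_le_add le_rfl ?_
  rw [div_mul_eq_mul_div, div_le_iff₀ (by positivity)]
  nlinarith [norm_nonneg (y - x)]

/-- The barrier step for the reflected function. -/
theorem drop_step_left {u : E → ℝ} (hu : InfHarmonic u) (hlip : ∀ x y, u y - u x ≤ ‖y - x‖)
    {e : E} (he : ‖e‖ = 1) (p : E) {R : ℝ} (hR : 0 < R) (c : ℝ)
    (hs : lineDev u e p (c - 17 * R) - lineDev u e p (c + R / 4) ≤ R / 10) :
    lineDev u e p (c - 17 * R) - lineDev u e p (c + R / 4)
      ≤ 60 * (lineDev u e p (c - 17 * R) - lineDev u e p (c - R / 4)) := by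
  have hee : ⟪e, e⟫ = 1 := by rw [real_inner_self_eq_norm_sq, he, one_pow]
  have hlip' : ∀ x y : E, -u y - -u x ≤ ‖y - x‖ := fun x y => by
    have := hlip y x
    rw [norm_sub_rev] at this
    linarith
  have key : ∀ s, -u ((p + c • e) + s • (-e)) - ⟪-e, p + c • e⟫ - s
      = -lineDev u e p (c - s) := by
    intro s
    have h1 : (p + c • e) + s • (-e) = p + (c - s) • e := by module
    rw [h1, inner_neg_left, inner_add_right, real_inner_smul_right, hee]
    simp only [lineDev]
    ring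
  have h := drop_step hu.neg hlip' (e := -e) (by rw [norm_neg, he]) (p + c • e) hR
  dsimp only at h
  rw [key, key, key, show c - -R / 4 = c + R / 4 by ring] at h
  have := h (by linarith)
  linarith

/-- Smallness of the drop extends to the right by one half-window. -/
theorem drop_extend {u : E → ℝ} (hu : InfHarmonic u) (hlip : ∀ x y, u y - u x ≤ ‖y - x‖)
    {e : E} (he : ‖e‖ = 1) (p : E) {R : ℝ} (hR : 0 < R) {L0 s0 η : ℝ}
    (hL : L0 ≤ s0 - 69 / 4 * R) (hη : lineDev u e p L0 - lineDev u e p s0 ≤ η)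
    (hsmall : 601 * η < R) :
    lineDev u e p L0 - lineDev u e p (s0 + R / 2) ≤ 61 * η := by
  set a := lineDev u e p with ha
  have hanti : Antitone a := antitone_lineDev hlip he p
  have hcont : Continuous a := by
    have := hu.1
    show Continuous fun s => u (p + s • e) - ⟪e, p⟫ - s
    fun_prop
  set E' : ℝ → ℝ := fun c => a (c - 17 * R) - a (c + R / 4) with hE
  set c1 := s0 + R / 4 with hc1
  have hη0 : 0 ≤ η := by
    have := hanti (show L0 ≤ s0 by linarith)
    linarith
  have hstart : E' (s0 - R / 4) ≤ η := by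
    have h1 := hanti (show L0 ≤ s0 - R / 4 - 17 * R by linarith)
    simp only [hE, show s0 - R / 4 + R / 4 = s0 by ring]
    linarith
  have hstep : ∀ c ∈ Set.Icc (s0 - R / 4) c1, E' c ≤ R / 10 → E' c ≤ 60 * η := by
    intro c hc hsm
    refine (drop_step_left hu hlip he p hR c hsm).trans ?_
    have h1 := hanti (show L0 ≤ c - 17 * R by linarith [hc.1])
    have h2 := hanti (show c - R / 4 ≤ s0 by linarith [hc.2, hc1])
    linarith
  have hbound : E' c1 ≤ R / 10 := by
    by_contra hgt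
    push Not at hgt
    obtain ⟨c, hc, hceq⟩ := intermediate_value_Icc (show s0 - R / 4 ≤ c1 by linarith)
      (show ContinuousOn E' (Set.Icc (s0 - R / 4) c1) by fun_prop)
      (show R / 10 ∈ Set.Icc (E' (s0 - R / 4)) (E' c1) from ⟨by linarith, hgt.le⟩)
    have := hstep c hc hceq.le
    linarith
  have h := hstep c1 ⟨by linarith, le_rfl⟩ hbound
  have h3 := hanti (show L0 ≤ c1 - 17 * R by linarith)
  have h4 := hanti (show c1 - 17 * R ≤ s0 + R / 2 by linarith)
  have h5 : a L0 - a (c1 - 17 * R) ≤ η := by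
    have := hanti (show c1 - 17 * R ≤ s0 by linarith)
    linarith
  simp only [hE, show c1 + R / 4 = s0 + R / 2 by rw [hc1]; ring] at h
  linarith

/-- A small drop on a half-line controls the drop on symmetric intervals. -/
theorem drop_of_halfline {u : E → ℝ} (hu : InfHarmonic u) (hlip : ∀ x y, u y - u x ≤ ‖y - x‖)
    {e : E} (he : ‖e‖ = 1) {C : ℝ} (hC : 0 ≤ C)
    (p : E) (hray : ∀ t, 0 ≤ t →
      lineDev u e p (-t) - lineDev u e p 0 ≤ C * (1 + t) ^ (1 / 300 : ℝ)) :
    ∃ K : ℝ, 0 ≤ K ∧ ∀ᶠ T : ℝ in atTop,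
      lineDev u e p (-T) - lineDev u e p T ≤ K * T ^ (1 / 300 : ℝ) := by
  set a := lineDev u e p with ha
  have hanti : Antitone a := antitone_lineDev hlip he p
  set K0 := 21 * C with hK0
  have hK00 : 0 ≤ K0 := by positivity
  refine ⟨3721 * K0, by positivity, ?_⟩
  have htend : Tendsto (fun T : ℝ => 36661 * K0 * T ^ (-(299 / 300 : ℝ))) atTop (𝓝 0) := by
    simpa using (tendsto_rpow_neg_atTop (y := (299 / 300 : ℝ)) (by norm_num)).const_mul
      (36661 * K0)
  filter_upwards [htend.eventually_lt_const (show (0 : ℝ) < 1 by norm_num),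
    eventually_ge_atTop 1] with T hsmall hT
  set η := K0 * T ^ (1 / 300 : ℝ) with hη
  have hpow1 : (1 : ℝ) ≤ T ^ (1 / 300 : ℝ) := one_le_rpow hT (by norm_num)
  have hη0 : 0 ≤ η := by positivity
  have hup : a (-(20 * T)) - a 0 ≤ η := by
    have h := hray (20 * T) (by linarith)
    have h1 : (1 + 20 * T) ^ (1 / 300 : ℝ) ≤ 21 * T ^ (1 / 300 : ℝ) := by
      calc (1 + 20 * T) ^ (1 / 300 : ℝ) ≤ (21 * T) ^ (1 / 300 : ℝ) :=
            rpow_le_rpow (by positivity) (by linarith) (by norm_num)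
        _ = (21 : ℝ) ^ (1 / 300 : ℝ) * T ^ (1 / 300 : ℝ) := mul_rpow (by norm_num) (by linarith)
        _ ≤ 21 * T ^ (1 / 300 : ℝ) := by
            gcongr
            simpa using rpow_le_rpow_of_exponent_le (x := (21 : ℝ)) (by norm_num)
              (show (1 / 300 : ℝ) ≤ 1 by norm_num)
    have h2 := mul_le_mul_of_nonneg_left h1 hC
    simp only [hη, hK0] at h ⊢
    linarith
  have hpow : T ^ (1 / 300 : ℝ) = T ^ (-(299 / 300 : ℝ)) * T := by
    rw [← rpow_add_one (by linarith : T ≠ 0)]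
    norm_num
  have hsm : 36661 * η < T := by
    rw [hη, hpow]
    have := mul_lt_mul_of_pos_right hsmall (by linarith : (0 : ℝ) < T)
    linarith
  have e1 := drop_extend hu hlip he p (R := T) (by linarith) (L0 := -(20 * T)) (s0 := 0)
    (η := η) (by linarith) hup (by linarith)
  have e2 := drop_extend hu hlip he p (R := T) (by linarith) (L0 := -(20 * T)) (s0 := 0 + T / 2)
    (η := 61 * η) (by linarith) e1 (by linarith)
  rw [show 0 + T / 2 + T / 2 = T by ring] at e2
  have h5 := hanti (show -(20 * T) ≤ -T by linarith)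
  simp only [← ha] at e2
  linarith

omit [FiniteDimensional ℝ E] in
/-- An upper bound by an affine function and a small power bounds the drop on every negative
half-line. -/
theorem halfline_of_upper {u : E → ℝ} {e : E} (he : ‖e‖ = 1) {C : ℝ} (hC : 0 ≤ C)
    (hg : ∀ x, u x - ⟪e, x⟫ ≤ C * (1 + ‖x‖) ^ (1 / 300 : ℝ)) (p : E) (t : ℝ) (ht : 0 ≤ t) :
    lineDev u e p (-t) - lineDev u e p 0
      ≤ (C * (1 + ‖p‖) ^ (1 / 300 : ℝ) + |lineDev u e p 0|) * (1 + t) ^ (1 / 300 : ℝ) := by
  have hee : ⟪e, e⟫ = 1 := by rw [real_inner_self_eq_norm_sq, he, one_pow]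
  have h := hg (p + (-t) • e)
  rw [inner_add_right, real_inner_smul_right, hee, mul_one, ← sub_sub] at h
  have h1 : (1 + ‖p + (-t) • e‖) ^ (1 / 300 : ℝ)
      ≤ (1 + ‖p‖) ^ (1 / 300 : ℝ) * (1 + t) ^ (1 / 300 : ℝ) := by
    rw [← mul_rpow (by positivity) (by positivity)]
    refine rpow_le_rpow (by positivity) ?_ (by norm_num)
    have h1 := norm_add_le p ((-t) • e)
    rw [norm_smul, Real.norm_eq_abs, he, mul_one, abs_neg, abs_of_nonneg ht] at h1
    nlinarith [norm_nonneg p, mul_nonneg (norm_nonneg p) ht]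
  have h2 := mul_le_mul_of_nonneg_left h1 hC
  have h3 : |lineDev u e p 0| ≤ |lineDev u e p 0| * (1 + t) ^ (1 / 300 : ℝ) :=
    le_mul_of_one_le_right (abs_nonneg _) (one_le_rpow (by linarith) (by norm_num))
  have h4 := neg_abs_le (lineDev u e p 0)
  simp only [lineDev] at h3 h4 ⊢
  linarith

/-- The drop along every line vanishes when it grows at most like a small power. -/
theorem axis_const_of_drop {u : E → ℝ} (hu : InfHarmonic u) (hlip : ∀ x y, u y - u x ≤ ‖y - x‖)
    {e : E} (he : ‖e‖ = 1) (p : E)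
    (hdrop : ∃ K : ℝ, 0 ≤ K ∧ ∀ᶠ T : ℝ in atTop,
      lineDev u e p (-T) - lineDev u e p T ≤ K * T ^ (1 / 300 : ℝ)) (s : ℝ) :
    u (p + s • e) = u p + s := by
  obtain ⟨K, hK0, hev⟩ := hdrop
  set a := lineDev u e p with ha
  have hanti : Antitone a := antitone_lineDev hlip he p
  have htend : Tendsto (fun T : ℝ => K * (68 : ℝ) ^ (1 / 300 : ℝ) * T ^ (-(299 / 300 : ℝ))) atTop
      (𝓝 0) := by
    simpa using (tendsto_rpow_neg_atTop (y := (299 / 300 : ℝ)) (by norm_num)).const_mul
      (K * (68 : ℝ) ^ (1 / 300 : ℝ))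
  obtain ⟨T₀, hT₀⟩ := eventually_atTop.1
    ((htend.eventually_lt_const (show (0 : ℝ) < 2 / 5 by norm_num)).and
      (hev.and (eventually_ge_atTop 1)))
  have hD : ∀ T, T₀ ≤ T → a (-T) - a T ≤ K * T ^ (1 / 300 : ℝ) := fun T hT => (hT₀ T hT).2.1
  have hstep : ∀ T, T₀ ≤ T → 61 / 60 * (a (-T) - a T) ≤ a (-(68 * T)) - a (68 * T) := by
    intro T hT
    obtain ⟨hsmall, -, hT1⟩ := hT₀ T hT
    have hJ : a (-T) - a (68 * T) ≤ 2 / 5 * T := by
      have h1 := hanti (show -(68 * T) ≤ -T by linarith)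
      have h2 := hD (68 * T) (by linarith)
      have h4 : (T : ℝ) ^ (1 / 300 : ℝ) = T ^ (-(299 / 300 : ℝ)) * T := by
        rw [← rpow_add_one (by linarith : T ≠ 0)]
        norm_num
      rw [mul_rpow (by norm_num) (by linarith), h4, ← mul_assoc, ← mul_assoc] at h2
      nlinarith
    have h := drop_step hu hlip he p (R := 4 * T) (by linarith)
    dsimp only at h
    rw [show -(4 * T) / 4 = -T by ring, show 4 * T / 4 = T by ring,
      show 17 * (4 * T) = 68 * T by ring] at h
    simp only [ha, lineDev] at hJ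
    have h60 := h (by linarith)
    have h2 := hanti (show -(68 * T) ≤ -T by linarith)
    have h3 := hanti (show T ≤ 68 * T by linarith)
    simp only [ha, lineDev] at h2 h3 ⊢
    linarith
  have hzero : ∀ T, T₀ ≤ T → a (-T) - a T ≤ 0 := by
    intro T hT
    have hT1 := (hT₀ T hT).2.2
    have hiter : ∀ n : ℕ, (61 / 60 : ℝ) ^ n * (a (-T) - a T) ≤
        a (-((68 : ℝ) ^ n * T)) - a ((68 : ℝ) ^ n * T) := by
      intro n
      induction n with
      | zero => simp
      | succ n ih =>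
        have h1 : T₀ ≤ (68 : ℝ) ^ n * T :=
          hT.trans (le_mul_of_one_le_left (by linarith) (one_le_pow₀ (by norm_num)))
        have h2 := hstep _ h1
        rw [show (68 : ℝ) ^ (n + 1) * T = 68 * ((68 : ℝ) ^ n * T) by ring, pow_succ]
        linarith
    set q := (68 : ℝ) ^ (1 / 300 : ℝ) * (60 / 61) with hq
    have hq1 : q < 1 := by
      have := q_lt_one
      rw [hq]
      linarith
    have hlim : Tendsto (fun n : ℕ => K * T ^ (1 / 300 : ℝ) * q ^ n) atTop (𝓝 0) := by
      simpa using (tendsto_pow_atTop_nhds_zero_of_lt_one (by positivity) hq1).const_mul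
        (K * T ^ (1 / 300 : ℝ))
    refine ge_of_tendsto hlim (Eventually.of_forall fun n => ?_)
    have h1 := (hiter n).trans (hD _ (hT.trans (le_mul_of_one_le_left (by linarith)
      (one_le_pow₀ (by norm_num)))))
    have hpow : (((68 : ℝ) ^ n)) ^ (1 / 300 : ℝ) = ((68 : ℝ) ^ (1 / 300 : ℝ)) ^ n := by
      rw [← rpow_natCast, ← rpow_natCast, ← rpow_mul (by norm_num), ← rpow_mul (by norm_num),
        mul_comm]
    rw [mul_rpow (by positivity) (by linarith), hpow, ← le_div_iff₀' (by positivity)] at h1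
    refine h1.trans (le_of_eq ?_)
    rw [hq, mul_pow, div_pow, div_pow]
    field_simp
  set T := max (max T₀ |s|) 0 with hTdef
  have hTs : |s| ≤ T := (le_max_right T₀ |s|).trans (le_max_left _ _)
  have h0 := hzero T ((le_max_left T₀ |s|).trans (le_max_left _ _))
  obtain ⟨hs1, hs2⟩ := abs_le.1 hTs
  have hT0 : 0 ≤ T := le_max_right _ _
  have h1 := hanti hs1
  have h2 := hanti hs2
  have h3 := hanti (show -T ≤ 0 by linarith)
  have h4 := hanti hT0
  have h5 : a s = a 0 := by linarith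
  simp only [ha, lineDev, zero_smul, add_zero, sub_zero] at h5
  linarith

omit [FiniteDimensional ℝ E] in
/-- A function with Lipschitz constant one which has slope one on every line in direction `e`. -/
theorem eq_affine_of_axis {u : E → ℝ} (hlip : ∀ x y, u y - u x ≤ ‖y - x‖) {e : E}
    (he : ‖e‖ = 1) (haxis : ∀ (p : E) (s : ℝ), u (p + s • e) = u p + s) (x : E) :
    u x = ⟪e, x⟫ + u 0 := by
  have key : ∀ p q : E, u p - u q ≤ ⟪e, p - q⟫ := by
    intro p q
    refine le_of_forall_pos_le_add fun ε hε => ?_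
    obtain ⟨T, hT1, hT2⟩ : ∃ T : ℝ, 0 < T + ⟪e, p - q⟫ ∧
        ‖p - q‖ ^ 2 / (2 * (T + ⟪e, p - q⟫)) ≤ ε := by
      refine ⟨‖p - q‖ ^ 2 / (2 * ε) + 1 - ⟪e, p - q⟫, ?_, ?_⟩
      · rw [sub_add_cancel]
        positivity
      · rw [sub_add_cancel, div_le_iff₀ (by positivity)]
        have h : ε * (2 * (‖p - q‖ ^ 2 / (2 * ε) + 1)) = ‖p - q‖ ^ 2 + 2 * ε := by field_simp
        linarith
    have hw : ⟪e, p + T • e - q⟫ = T + ⟪e, p - q⟫ := by
      rw [show p + T • e - q = (p - q) + T • e by abel, inner_add_right, real_inner_smul_right,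
        real_inner_self_eq_norm_sq, he]
      ring
    have h1 := norm_le_along (e := e) (w := p + T • e - q) (by rw [hw]; exact hT1)
    have h2 : ‖p + T • e - q‖ ^ 2 - ⟪e, p + T • e - q⟫ ^ 2 ≤ ‖p - q‖ ^ 2 := by
      rw [hw, show p + T • e - q = (p - q) + T • e by abel, norm_add_sq_real,
        real_inner_smul_right, norm_smul, Real.norm_eq_abs, he, mul_one, sq_abs, real_inner_comm e]
      nlinarith [sq_nonneg ⟪e, p - q⟫]
    rw [hw] at h1 h2
    have h3 := hlip q (p + T • e)
    rw [haxis p T] at h3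
    have h4 := div_le_div_of_nonneg_right h2 (by linarith : (0 : ℝ) ≤ 2 * (T + ⟪e, p - q⟫))
    linarith
  have h1 := key x 0
  have h2 := key 0 x
  rw [sub_zero] at h1
  rw [zero_sub, inner_neg_right] at h2
  linarith

omit [FiniteDimensional ℝ E] in
/-- If a Lipschitz function with constant one has slope one on one full line then it has slope
one on every parallel line. -/
theorem axis_all_of_axis {u : E → ℝ} (hlip : ∀ x y, u y - u x ≤ ‖y - x‖) {e : E} (he : ‖e‖ = 1)
    {p : E} (haxis : ∀ s : ℝ, u (p + s • e) = u p + s) (q : E) (s : ℝ) :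
    u (q + s • e) = u q + s := by
  have key : ∀ q : E, u q = u p + ⟪e, q - p⟫ := by
    intro q
    refine le_antisymm (le_of_forall_pos_le_add fun ε hε => ?_)
      (le_of_forall_pos_le_add fun ε hε => ?_)
    · obtain ⟨T, hT⟩ := exists_gt (‖q - p‖ ^ 2 / (2 * ε) + |⟪e, q - p⟫|)
      have hd : 0 < T + ⟪e, q - p⟫ := by
        linarith [neg_abs_le ⟪e, q - p⟫, show 0 ≤ ‖q - p‖ ^ 2 / (2 * ε) by positivity]
      have hw : ⟪e, q - (p + (-T) • e)⟫ = T + ⟪e, q - p⟫ := by
        rw [show q - (p + (-T) • e) = (q - p) + T • e by module, inner_add_right,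
          real_inner_smul_right, real_inner_self_eq_norm_sq, he]
        ring
      have h1 := norm_le_along (e := e) (w := q - (p + (-T) • e)) (by rw [hw]; exact hd)
      have h2 : ‖q - (p + (-T) • e)‖ ^ 2 - ⟪e, q - (p + (-T) • e)⟫ ^ 2 ≤ ‖q - p‖ ^ 2 := by
        rw [hw, show q - (p + (-T) • e) = (q - p) + T • e by module, norm_add_sq_real,
          real_inner_smul_right, norm_smul, Real.norm_eq_abs, he, mul_one, sq_abs,
          real_inner_comm e]
        nlinarith [sq_nonneg ⟪e, q - p⟫]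
      have h3 := hlip (p + (-T) • e) q
      rw [haxis] at h3
      rw [hw] at h1 h2
      have h4 : (‖q - (p + (-T) • e)‖ ^ 2 - (T + ⟪e, q - p⟫) ^ 2) / (2 * (T + ⟪e, q - p⟫)) ≤ ε := by
        rw [div_le_iff₀ (by linarith)]
        have h5 : ‖q - p‖ ^ 2 < (T - |⟪e, q - p⟫|) * (2 * ε) := by
          rw [← div_lt_iff₀ (by positivity)]; linarith
        nlinarith [neg_abs_le ⟪e, q - p⟫]
      linarith
    · obtain ⟨T, hT⟩ := exists_gt (‖q - p‖ ^ 2 / (2 * ε) + |⟪e, q - p⟫|)
      have hd : 0 < T - ⟪e, q - p⟫ := by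
        linarith [le_abs_self ⟪e, q - p⟫, show 0 ≤ ‖q - p‖ ^ 2 / (2 * ε) by positivity]
      have hw : ⟪e, p + T • e - q⟫ = T - ⟪e, q - p⟫ := by
        rw [show p + T • e - q = T • e - (q - p) by abel, inner_sub_right, real_inner_smul_right,
          real_inner_self_eq_norm_sq, he]
        ring
      have h1 := norm_le_along (e := e) (w := p + T • e - q) (by rw [hw]; exact hd)
      have h2 : ‖p + T • e - q‖ ^ 2 - ⟪e, p + T • e - q⟫ ^ 2 ≤ ‖q - p‖ ^ 2 := by
        rw [hw, show p + T • e - q = T • e - (q - p) by abel, norm_sub_sq_real,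
          real_inner_smul_left, norm_smul, Real.norm_eq_abs, he, mul_one, sq_abs]
        nlinarith [sq_nonneg ⟪e, q - p⟫]
      have h3 := hlip q (p + T • e)
      rw [haxis] at h3
      rw [hw] at h1 h2
      have h4 : (‖p + T • e - q‖ ^ 2 - (T - ⟪e, q - p⟫) ^ 2) / (2 * (T - ⟪e, q - p⟫)) ≤ ε := by
        rw [div_le_iff₀ (by linarith)]
        have h5 : ‖q - p‖ ^ 2 < (T - |⟪e, q - p⟫|) * (2 * ε) := by
          rw [← div_lt_iff₀ (by positivity)]; linarith
        nlinarith [le_abs_self ⟪e, q - p⟫]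
      linarith
  rw [key (q + s • e), key q, show q + s • e - p = (q - p) + s • e by abel, inner_add_right,
    real_inner_smul_right, real_inner_self_eq_norm_sq, he]
  ring

/-- A solution attaining its Lipschitz constant up to a small power on one ray is affine. -/
theorem eq_affine_of_ray {u : E → ℝ} (hu : InfHarmonic u) {L : ℝ} (hL : 0 < L)
    (hlip : ∀ x y, u y - u x ≤ L * ‖y - x‖) {e : E} (he : ‖e‖ = 1) (p : E) (C : ℝ)
    (hray : ∀ t : ℝ, 0 ≤ t → u p + L * t - C * (1 + t) ^ (1 / 300 : ℝ) ≤ u (p + t • e)) (x : E) :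
    u x = ⟪L • e, x⟫ + u 0 := by
  set v : E → ℝ := fun y => -(L⁻¹ * u y) with hv
  have hv' : InfHarmonic v := (hu.const_mul (inv_pos.2 hL)).neg
  have hlipv : ∀ y z : E, v z - v y ≤ ‖z - y‖ := fun y z => by
    have h := hlip z y
    rw [← div_le_iff₀' hL, norm_sub_rev] at h
    simp only [hv]
    linarith [show (u y - u z) / L = L⁻¹ * u y - L⁻¹ * u z by ring]
  have he' : ‖-e‖ = 1 := by rw [norm_neg, he]
  have hC : 0 ≤ L⁻¹ * |C| := by positivity
  have hh : ∀ t, 0 ≤ t → lineDev v (-e) p (-t) - lineDev v (-e) p 0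
      ≤ L⁻¹ * |C| * (1 + t) ^ (1 / 300 : ℝ) := by
    intro t ht
    simp only [lineDev, hv, smul_neg, neg_smul, neg_neg, zero_smul, neg_zero, add_zero, sub_zero]
    have h := hray t ht
    have h2 := mul_le_mul_of_nonneg_right (le_abs_self C)
      (show (0 : ℝ) ≤ (1 + t) ^ (1 / 300 : ℝ) by positivity)
    have h3 := mul_le_mul_of_nonneg_left
      (show u p + L * t - |C| * (1 + t) ^ (1 / 300 : ℝ) ≤ u (p + t • e) by linarith)
      (inv_pos.2 hL).le
    rw [mul_sub, mul_add, ← mul_assoc, inv_mul_cancel₀ hL.ne', one_mul, ← mul_assoc] at h3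
    linarith
  have hax := axis_const_of_drop hv' hlipv he' p (drop_of_halfline hv' hlipv he' hC p hh)
  have h := eq_affine_of_axis hlipv he' (axis_all_of_axis hlipv he' hax) x
  simp only [hv, inner_neg_left] at h
  rw [real_inner_smul_left]
  field_simp at h
  linarith

/-- One-sided flat Liouville theorem. -/
theorem eq_affine_of_upper {u : E → ℝ} (hu : InfHarmonic u) (b : E) (C : ℝ)
    (hg : ∀ x, u x ≤ ⟪b, x⟫ + C * (1 + ‖x‖) ^ (1 / 300 : ℝ)) (x : E) :
    u x = ⟪b, x⟫ + u 0 := by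
  have hg' : ∀ y, u y - ⟪b, y⟫ ≤ |C| * (1 + ‖y‖) ^ (1 / 300 : ℝ) := fun y => by
    have := hg y
    have := mul_le_mul_of_nonneg_right (le_abs_self C)
      (show (0 : ℝ) ≤ (1 + ‖y‖) ^ (1 / 300 : ℝ) by positivity)
    linarith
  rcases eq_or_ne b 0 with rfl | hb
  · have h1 := lipschitz_of_upper_growth hu (abs_nonneg C) (by norm_num) (by norm_num) hg' 0 x
    have h2 := lipschitz_of_upper_growth hu (abs_nonneg C) (by norm_num) (by norm_num) hg' x 0
    simp only [norm_zero, zero_mul] at h1 h2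
    rw [inner_zero_left]
    linarith
  · have hbn : 0 < ‖b‖ := norm_pos_iff.2 hb
    have hu' := hu.const_mul (inv_pos.2 hbn)
    set e := ‖b‖⁻¹ • b with he_def
    have he : ‖e‖ = 1 := by
      rw [he_def, norm_smul, norm_inv, norm_norm, inv_mul_cancel₀ hbn.ne']
    have hC : 0 ≤ ‖b‖⁻¹ * |C| := by positivity
    have hg1 : ∀ y, ‖b‖⁻¹ * u y - ⟪e, y⟫ ≤ ‖b‖⁻¹ * |C| * (1 + ‖y‖) ^ (1 / 300 : ℝ) := fun y => by
      rw [he_def, real_inner_smul_left, ← mul_sub, mul_assoc]
      exact mul_le_mul_of_nonneg_left (hg' y) (inv_pos.2 hbn).le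
    have hlip : ∀ y z : E, ‖b‖⁻¹ * u z - ‖b‖⁻¹ * u y ≤ ‖z - y‖ := fun y z => by
      simpa [he] using
        lipschitz_of_upper_growth hu' hC (by norm_num) (by norm_num) hg1 y z
    have h := eq_affine_of_axis (u := fun y => ‖b‖⁻¹ * u y) hlip he
      (fun p s => axis_const_of_drop hu' hlip he p
        (drop_of_halfline hu' hlip he (by positivity) p (halfline_of_upper he hC hg1 p)) s) x
    rw [he_def, real_inner_smul_left, ← mul_add] at h
    exact mul_left_cancel₀ (inv_pos.2 hbn).ne' h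

/-- The same conclusion from a lower bound. -/
theorem eq_affine_of_lower {u : E → ℝ} (hu : InfHarmonic u) (b : E) (C : ℝ)
    (hg : ∀ x, ⟪b, x⟫ - C * (1 + ‖x‖) ^ (1 / 300 : ℝ) ≤ u x) (x : E) :
    u x = ⟪b, x⟫ + u 0 := by
  have h := eq_affine_of_upper hu.neg (-b) C
    (fun y => by rw [inner_neg_left]; linarith [hg y]) x
  rw [inner_neg_left] at h
  linarith

end

end Vale.Agent.P080
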